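import Vale.Agent.P250.Final
import Vale.Agent.P250.St

/-! A simply connected complete negatively pinched Kähler threefold that is not biholomorphic to a
bounded domain of `ℂ³`. -/

open Vale.Agent.P250.St

theorem Vale.Agent.Results.P250.Counter.result :
    ∃ (M : Set ((ℂ × ℂ) × ℂ)) (g : (ℂ × ℂ) × ℂ → (ℂ × ℂ) × ℂ →L[ℝ] (ℂ × ℂ) × ℂ →L[ℝ] ℝ),
      IsOpen M ∧ SimplyConnectedSpace M ∧ Kahler M g ∧ Complete M g ∧ Pinched M g ∧
      ¬BiholToBounded M := by
  obtain ⟨M, g, h1, h2, h3, h4, h5, h6⟩ := Vale.Agent.P250.final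
  refine ⟨M, g, h1, h2, ⟨⟨h3.smooth, h3.symm, h3.pos⟩, h3.herm, fun x hx u v w => ?_⟩, h4, h5, h6⟩
  have hd : DifferentiableAt ℝ g x :=
    (h3.smooth.contDiffAt (h1.mem_nhds hx)).differentiableAt (by simp)
  have e : ∀ a b c, dom g x a b c = fderiv ℝ g x a (Complex.I • b) c := fun a b c => by
    rw [dom, ((hd.hasFDerivAt.clm_apply (hasFDerivAt_const _ x)).clm_apply
      (hasFDerivAt_const c x)).fderiv]
    simp
  rw [e, e, e]
  exact h3.closed x hx u v w
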